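import Vale.Agent.P141.H958.WeakW

/-!
# P141, line (A): layers of the affected squares of a packed family

`Le i j` : the square `i` is contained in the square `j`.  `cnt N R S Q i` : the number of affected
squares which contain `i`.  If the family has the packing number `B` then the squares `i` with
`l < cnt i` have the measure `B (1 - 1 / B) ^ l 4 ^ N` (`tail_cnt`); the squares of one layer
`cnt i = l` are disjoint (`layer_unique`), and `cnt` sees only the squares above (`cnt_congr`).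
-/

namespace Vale.Agent.P141.H889.Tail

open Finset
open Vale.Agent.P141.PL (iv ix mem_iv ix_ix ix_zero)
open Vale.Agent.P141.H958 (Aff PackQ mem_Aff)

noncomputable section

open scoped Classical

/-- the square `i` is contained in the square `j` -/
def Le (i j : ℕ × ℤ × ℤ) : Prop :=
  i.1 ≤ j.1 ∧ ix (j.1 - i.1) i.2.1 = j.2.1 ∧ ix (j.1 - i.1) i.2.2 = j.2.2

theorem Le.refl (i : ℕ × ℤ × ℤ) : Le i i := by
  refine ⟨le_rfl, ?_, ?_⟩
  · rw [Nat.sub_self, ix_zero]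
  · rw [Nat.sub_self, ix_zero]

theorem Le.trans {i j k : ℕ × ℤ × ℤ} (h : Le i j) (h' : Le j k) : Le i k := by
  obtain ⟨h1, h2, h3⟩ := h
  obtain ⟨g1, g2, g3⟩ := h'
  have e : j.1 - i.1 + (k.1 - j.1) = k.1 - i.1 := by omega
  refine ⟨h1.trans g1, ?_, ?_⟩
  · rw [← g2, ← h2, ix_ix, e]
  · rw [← g3, ← h3, ix_ix, e]

/-- two squares over a common square are nested -/
theorem Le.nest {i j k : ℕ × ℤ × ℤ} (h : Le i j) (h' : Le i k) (hk : j.1 ≤ k.1) : Le j k := by
  obtain ⟨h1, h2, h3⟩ := h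
  obtain ⟨g1, g2, g3⟩ := h'
  have e : j.1 - i.1 + (k.1 - j.1) = k.1 - i.1 := by omega
  refine ⟨hk, ?_, ?_⟩
  · rw [← h2, ix_ix, e, g2]
  · rw [← h3, ix_ix, e, g3]

theorem Le.eq {i j : ℕ × ℤ × ℤ} (h : Le i j) (he : i.1 = j.1) : i = j := by
  obtain ⟨h1, h2, h3⟩ := h
  rw [← he, Nat.sub_self, ix_zero] at h2 h3
  exact Prod.ext he (Prod.ext h2 h3)

variable (N : ℕ) (R S : ℤ) (Q : ℕ → ℤ → ℤ → Prop)

/-- the affected squares which contain `i` -/
def abv (i : ℕ × ℤ × ℤ) : Finset (ℕ × ℤ × ℤ) := (Aff N R S Q).filter fun j => Le i j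

/-- their number -/
def cnt (i : ℕ × ℤ × ℤ) : ℕ := (abv N R S Q i).card

variable {N R S Q}

theorem mem_abv {i j : ℕ × ℤ × ℤ} : j ∈ abv N R S Q i ↔ j ∈ Aff N R S Q ∧ Le i j := by
  unfold abv
  rw [mem_filter]

theorem abv_sub {i j : ℕ × ℤ × ℤ} (h : Le i j) : abv N R S Q j ⊆ abv N R S Q i := fun _ hk =>
  mem_abv.2 ⟨(mem_abv.1 hk).1, h.trans (mem_abv.1 hk).2⟩

theorem cnt_mono {i j : ℕ × ℤ × ℤ} (h : Le i j) : cnt N R S Q j ≤ cnt N R S Q i :=
  card_le_card (abv_sub h)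

theorem cnt_pos {i : ℕ × ℤ × ℤ} (h : i ∈ Aff N R S Q) : 0 < cnt N R S Q i :=
  card_pos.2 ⟨i, mem_abv.2 ⟨h, Le.refl i⟩⟩

/-- **The layer `cnt = l + 1` above a square.** -/
theorem exists_layer (l : ℕ) : ∀ (n : ℕ) (i : ℕ × ℤ × ℤ), N - i.1 ≤ n → i ∈ Aff N R S Q →
    l < cnt N R S Q i → ∃ j ∈ Aff N R S Q, Le i j ∧ cnt N R S Q j = l + 1 := by
  intro n
  induction n with
  | zero =>
    intro i hn hi hl
    have := (mem_Aff.1 hi).1
    omega
  | succ n ih =>
    intro i hn hi hl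
    rcases Nat.lt_or_ge (l + 1) (cnt N R S Q i) with h | h
    · -- the next affected square
      have hne : ((abv N R S Q i).erase i).Nonempty := by
        rw [← card_pos, card_erase_of_mem (mem_abv.2 ⟨hi, Le.refl i⟩)]
        have : (abv N R S Q i).card = cnt N R S Q i := rfl
        omega
      obtain ⟨j, hj, hmin⟩ := exists_min_image _ (fun j : ℕ × ℤ × ℤ => j.1) hne
      have hji : j ≠ i := (mem_erase.1 hj).1
      have hj2 := mem_abv.1 (mem_erase.1 hj).2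
      have hlt : i.1 < j.1 := by
        rcases Nat.lt_or_ge i.1 j.1 with h1 | h1
        · exact h1
        · exact absurd (hj2.2.eq (le_antisymm hj2.2.1 h1)).symm hji
      have hsub : abv N R S Q i ⊆ insert i (abv N R S Q j) := by
        intro k hk
        rw [mem_insert]
        by_cases hki : k = i
        · exact Or.inl hki
        · right
          have hk2 := mem_abv.1 hk
          exact mem_abv.2 ⟨hk2.1, hj2.2.nest hk2.2 (hmin k (mem_erase.2 ⟨hki, hk⟩))⟩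
      have hc : cnt N R S Q i ≤ cnt N R S Q j + 1 :=
        (card_le_card hsub).trans (card_insert_le _ _)
      obtain ⟨k, hk, h1, h2⟩ := ih j (by have := (mem_Aff.1 hj2.1).1; omega) hj2.1 (by omega)
      exact ⟨k, hk, hj2.2.trans h1, h2⟩
    · exact ⟨i, hi, Le.refl i, by omega⟩

/-- **The squares of one layer are disjoint.** -/
theorem layer_unique {p j j' : ℕ × ℤ × ℤ} (hj : j ∈ Aff N R S Q) (hj' : j' ∈ Aff N R S Q)
    (h : Le p j) (h' : Le p j') (hc : cnt N R S Q j = cnt N R S Q j') : j = j' := by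
  have key : ∀ a b : ℕ × ℤ × ℤ, a ∈ Aff N R S Q → Le p a → Le p b → a.1 ≤ b.1 →
      cnt N R S Q a = cnt N R S Q b → a = b := by
    intro a b ha h1 h2 h3 h4
    have h5 := h1.nest h2 h3
    have h6 : abv N R S Q b = abv N R S Q a := eq_of_subset_of_card_le (abv_sub h5) h4.le
    have h7 : a ∈ abv N R S Q b := by
      rw [h6]
      exact mem_abv.2 ⟨ha, Le.refl a⟩
    exact h5.eq (le_antisymm h5.1 (mem_abv.1 h7).2.1)
  rcases le_total j.1 j'.1 with h1 | h1
  · exact key j j' hj h h' h1 hc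
  · exact (key j' j hj' h' h h1 hc.symm).symm

/-- `cnt` sees only the squares above. -/
theorem cnt_congr {Q' : ℕ → ℤ → ℤ → Prop} {i : ℕ × ℤ × ℤ}
    (h : ∀ j, Le i j → (Q j.1 j.2.1 j.2.2 ↔ Q' j.1 j.2.1 j.2.2)) :
    cnt N R S Q i = cnt N R S Q' i := by
  unfold cnt
  congr 1
  ext j
  rw [mem_abv, mem_abv, mem_Aff, mem_Aff]
  constructor
  · rintro ⟨⟨h1, h2, h3, h4⟩, h5⟩
    exact ⟨⟨h1, h2, h3, (h j h5).1 h4⟩, h5⟩
  · rintro ⟨⟨h1, h2, h3, h4⟩, h5⟩
    exact ⟨⟨h1, h2, h3, (h j h5).2 h4⟩, h5⟩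

/-- the measure of the squares with `l < cnt` -/
def tl (N : ℕ) (R S : ℤ) (Q : ℕ → ℤ → ℤ → Prop) (l : ℕ) : ℝ :=
  ∑ i ∈ (Aff N R S Q).filter fun i => l < cnt N R S Q i, (4 : ℝ) ^ i.1

/-- the measure of the layer `cnt = l` -/
def ly (N : ℕ) (R S : ℤ) (Q : ℕ → ℤ → ℤ → Prop) (l : ℕ) : ℝ :=
  ∑ i ∈ (Aff N R S Q).filter fun i => cnt N R S Q i = l, (4 : ℝ) ^ i.1

theorem tl_nonneg (N : ℕ) (R S : ℤ) (Q : ℕ → ℤ → ℤ → Prop) (l : ℕ) : 0 ≤ tl N R S Q l :=
  sum_nonneg fun _ _ => by positivity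

theorem tl_succ (l : ℕ) : tl N R S Q l = tl N R S Q (l + 1) + ly N R S Q (l + 1) := by
  unfold tl ly
  rw [← sum_union]
  · refine sum_congr ?_ fun _ _ => rfl
    ext i
    rw [mem_union, mem_filter, mem_filter, mem_filter]
    constructor
    · rintro ⟨h1, h2⟩
      rcases Nat.lt_or_ge (l + 1) (cnt N R S Q i) with h | h
      · exact Or.inl ⟨h1, h⟩
      · exact Or.inr ⟨h1, by omega⟩
    · rintro (⟨h1, h2⟩ | ⟨h1, h2⟩)
      · exact ⟨h1, by omega⟩
      · exact ⟨h1, by omega⟩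
  · rw [disjoint_left]
    intro i h1 h2
    have h3 := (mem_filter.1 h1).2
    have h4 := (mem_filter.1 h2).2
    omega

/-- all the squares below a layer -/
theorem tl_le_ly {B : ℝ} (h : PackQ N R S Q B) (l : ℕ) :
    tl N R S Q l ≤ B * ly N R S Q (l + 1) := by
  unfold tl ly
  set F := (Aff N R S Q).filter fun i => l < cnt N R S Q i with hF
  set G := (Aff N R S Q).filter fun i => cnt N R S Q i = l + 1 with hG
  have h1 : ∀ i ∈ F, (4 : ℝ) ^ i.1 ≤ ∑ j ∈ G, if Le i j then (4 : ℝ) ^ i.1 else 0 := by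
    intro i hi
    rw [hF, mem_filter] at hi
    obtain ⟨j, hj, hij, hc⟩ := exists_layer l (N - i.1) i le_rfl hi.1 hi.2
    have hjG : j ∈ G := mem_filter.2 ⟨hj, hc⟩
    have h2 := single_le_sum (f := fun j => if Le i j then (4 : ℝ) ^ i.1 else 0)
      (fun j _ => by split_ifs <;> positivity) hjG
    simpa only [if_pos hij] using h2
  refine (sum_le_sum h1).trans ?_
  rw [sum_comm, mul_sum]
  refine sum_le_sum fun j hj => ?_
  have hjA := (mem_filter.1 hj).1
  rw [← sum_filter]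
  refine le_trans ?_ (h j.1 (mem_Aff.1 hjA).1.le j.2.1 j.2.2)
  refine sum_le_sum_of_subset_of_nonneg ?_ fun i _ _ => by positivity
  intro i hi
  rw [mem_filter] at hi
  exact mem_filter.2 ⟨(mem_filter.1 hi.1).1, hi.2⟩

/-- **(X1)** The squares which are contained in more than `l` affected squares. -/
theorem tail_cnt {B : ℝ} (hB : 1 ≤ B) (h : PackQ N R S Q B) (l : ℕ) :
    tl N R S Q l ≤ B * (1 - B⁻¹) ^ l * 4 ^ N := by
  have hB0 : 0 < B := by linarith
  have h1 : 0 ≤ 1 - B⁻¹ := by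
    have := inv_le_one_of_one_le₀ hB
    linarith
  induction l with
  | zero =>
    rw [pow_zero, mul_one]
    refine le_trans ?_ (h N le_rfl R S)
    unfold tl
    refine sum_le_sum_of_subset_of_nonneg ?_ fun i _ _ => by positivity
    intro i hi
    have hi1 := (mem_filter.1 hi).1
    have hi2 := mem_Aff.1 hi1
    exact mem_filter.2 ⟨hi1, hi2.1.le, mem_iv.1 hi2.2.1, mem_iv.1 hi2.2.2.1⟩
  | succ l ih =>
    have h2 := tl_le_ly h l
    have h3 := tl_succ (N := N) (R := R) (S := S) (Q := Q) l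
    have h4 : B⁻¹ * tl N R S Q l ≤ ly N R S Q (l + 1) := by
      rw [inv_mul_le_iff₀ hB0]
      exact h2
    have h5 : tl N R S Q (l + 1) ≤ (1 - B⁻¹) * tl N R S Q l := by linarith
    refine h5.trans ((mul_le_mul_of_nonneg_left ih h1).trans (le_of_eq ?_))
    ring

/-- the same with an exponential -/
theorem tail_exp {B : ℝ} (hB : 1 ≤ B) (h : PackQ N R S Q B) (l : ℕ) :
    tl N R S Q l ≤ B * Real.exp (-(l / B)) * 4 ^ N := by
  have hB0 : 0 < B := by linarith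
  refine (tail_cnt hB h l).trans ?_
  have h1 : 1 - B⁻¹ ≤ Real.exp (-B⁻¹) := by
    have := Real.add_one_le_exp (-B⁻¹)
    linarith
  have h0 : 0 ≤ 1 - B⁻¹ := by
    have := inv_le_one_of_one_le₀ hB
    linarith
  have h2 : (1 - B⁻¹) ^ l ≤ Real.exp (-(l / B)) := by
    refine (pow_le_pow_left₀ h0 h1 l).trans (le_of_eq ?_)
    rw [← Real.exp_nat_mul]
    congr 1
    rw [div_eq_mul_inv]
    ring
  gcongr

/-- **Sums over one layer**: a nonnegative function of the points is counted once. -/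
theorem layer_sum (l : ℕ) {f : ℤ → ℤ → ℝ} (hf : ∀ x y, 0 ≤ f x y) :
    ∑ i ∈ (Aff N R S Q).filter fun i => cnt N R S Q i = l,
      ∑ x ∈ iv i.1 i.2.1, ∑ y ∈ iv i.1 i.2.2, f x y ≤ ∑ x ∈ iv N R, ∑ y ∈ iv N S, f x y := by
  set G := (Aff N R S Q).filter fun i => cnt N R S Q i = l with hG
  have e1 : ∀ i : ℕ × ℤ × ℤ, ∑ x ∈ iv i.1 i.2.1, ∑ y ∈ iv i.1 i.2.2, f x y =
      ∑ z ∈ iv i.1 i.2.1 ×ˢ iv i.1 i.2.2, f z.1 z.2 :=
    fun i => (sum_product _ _ fun z : ℤ × ℤ => f z.1 z.2).symm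
  rw [sum_congr rfl fun i _ => e1 i, ← sum_product _ _ (fun z : ℤ × ℤ => f z.1 z.2),
    ← sum_biUnion]
  · refine sum_le_sum_of_subset_of_nonneg ?_ fun z _ _ => hf _ _
    intro z hz
    obtain ⟨i, hi, hz⟩ := mem_biUnion.1 hz
    have hi2 := mem_Aff.1 (mem_filter.1 hi).1
    obtain ⟨hz1, hz2⟩ := mem_product.1 hz
    have e : i.1 + (N - i.1) = N := by have := hi2.1; omega
    rw [mem_product, mem_iv, mem_iv]
    constructor
    · rw [← e, ← ix_ix, mem_iv.1 hz1]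
      exact mem_iv.1 hi2.2.1
    · rw [← e, ← ix_ix, mem_iv.1 hz2]
      exact mem_iv.1 hi2.2.2.1
  · intro i hi j hj hij
    rw [Function.onFun, disjoint_left]
    intro z hz hz'
    rw [mem_product, mem_iv, mem_iv] at hz hz'
    refine hij (layer_unique (p := (0, z.1, z.2)) (mem_filter.1 hi).1 (mem_filter.1 hj).1
      ⟨Nat.zero_le _, hz.1, hz.2⟩ ⟨Nat.zero_le _, hz'.1, hz'.2⟩ ?_)
    rw [(mem_filter.1 hi).2, (mem_filter.1 hj).2]

end

end Vale.Agent.P141.H889.Tail
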